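import Crest.Agent.X212.Ntz30.Gau
import Crest.Agent.X212.Ixz30.Nat
import Crest.Agent.X212.Cht98.TrA
import Crest.Agent.X212.Cht98.TrI
import Crest.Agent.X212.Cht98.Cov
import Crest.Agent.X212.Eqv71.Cyl

/-!
# X212 / Ntz30 (helper30): the leaf `Cht98.NatZ`
-/

set_option autoImplicit false
set_option linter.unusedSectionVars false
noncomputable section
open scoped Manifold ContDiff Topology InnerProductSpace NNReal
open MeasureTheory Set Function Filter

namespace Crest.Agent.X212.Ntz30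
open An An.Pre Sob92 Cyf70 Mod61 Map77 Nk89 Nd18 Eqv71 Ixz30
open M (Mf)
open Cht98 (tau iso_tau LD tG)

theorem dab {sg t : ℝ} (h : sg = 1 ∨ sg = -1) (ht : 1 < sg * t) : deriv ab t = sg := by
  rw [show deriv ab t = deriv (fun s => sg * s) t from EventuallyEq.deriv_eq
    (((continuous_const.mul continuous_id).continuousAt.eventually (lt_mem_nhds ht)).mono
      fun _ h' => ab_eq h h'.le)]
  simp

theorem lip_ab : ∃ C, ∀ s t, ‖ab s - ab t‖ ≤ C * ‖s - t‖ :=
  let ⟨C, h⟩ := bd_dab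
  ⟨C 0, fun s t => convex_univ.norm_image_sub_le_of_norm_deriv_le
    (fun x _ => sm_ab.differentiable (by simp) x) (fun x _ => h.2 0 0 le_rfl x) trivial trivial⟩

variable {κ lam : Type} [Fintype κ] [Fintype lam] {Y : Mf 3} [CompactSpace Y.M]
  {D : YD Y.I Y.M κ lam} {δ : ℝ} {O : Set (Y.M × ℝ)} {β β' : YC Y.M κ lam} {sg s l : ℝ} {k : ℕ}

theorem P_inv (a b : Option κ) (y : Y.M) (t t' : ℝ) : D.B.P a b (y, t) = D.B.P a b (y, t') := by
  cases a <;> cases b <;> rfl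

theorem half (hD : D.OK) (h : D.Adm β) (h' : D.Adm β') (hs : sg = 1 ∨ sg = -1)
    {w : Y.M × ℝ → CL β.m.V β'.m.V} {ζ : Circle} (e : CEq D.Z (cy β) (cy β') {z | s < sg * z.2}
      (fun z => (z.1, z.2 + l)) (fun z i j => D.B.P i j z) D.B.l w ζ) :
    (∀ z : Y.M × ℝ, s < sg * z.2 → w z = w (z.1, sg * (s + 1))) ∧
      Mod61.EqOn D.B D.Z univ (cy β) (cy β') (fun z => w (z.1, sg * (s + 1))) ζ := by
  have o : IsOpen {z : Y.M × ℝ | s < sg * z.2} := isOpen_lt continuous_const (by fun_prop)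
  have m : s < sg * (sg * (s + 1)) := by rcases hs with rfl | rfl <;> linarith
  have m' : ∀ y : Y.M, (y, sg * (s + 1)) ∈ {z : Y.M × ℝ | s < sg * z.2} := fun _ => m
  have sw : ∀ z : Y.M × ℝ, s < sg * z.2 → ContMDiffAt (IC Y.I) 𝓘(ℝ, CL β.m.V β'.m.V) ∞ w z :=
    fun z hz => e.m.su.contMDiffAt (o.mem_nhds hz)
  have q : ∀ a (z : Y.M × ℝ), ∑ b, D.B.P b a z • β'.W b z.1 = β'.W a z.1 := fun a z =>
    (Pj41.IsConn.on h'.adm.conn univ).proj' hD.B a z trivial
  have p : ∀ z : Y.M × ℝ, s < sg * z.2 → ∀ a,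
      D.Z.D a w z + β'.W a z.1 ∘L w z - w z ∘L β.W a z.1 = 0 := fun z hz a => by
    rw [← q]; exact e.W z hz a
  have ti : ∀ z : Y.M × ℝ, s < sg * z.2 → w z = w (z.1, sg * (s + 1)) := fun z hz => by
    have md := fun t ht => (sw (z.1, t) ht).mdifferentiableAt (by simp)
    refine (isOpen_lt (f := fun _ => s) (g := fun t : ℝ => sg * t) continuous_const
      (by fun_prop)).is_const_of_deriv_eq_zero (f := fun t => w (z.1, t))
      (convex_halfSpace_gt ⟨mul_add sg, fun a b => mul_left_comm sg a b⟩ s).isPreconnected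
      (fun t ht => (diff_slice_snd (md t ht)).differentiableWithinAt) (fun t ht => ?_) hz m
    have k := p (z.1, t) ht none
    rw [h.tmp, h'.tmp, ContinuousLinearMap.zero_comp, ContinuousLinearMap.comp_zero, add_zero,
      sub_zero] at k
    exact (D_none_at D.F.toPre (md t ht)).symm.trans k
  have sm : Sm Y.I fun y => w (y, sg * (s + 1)) := fun y =>
    (sw _ m).comp y (contMDiffAt_id.prodMk contMDiffAt_const)
  have k : ∀ x a, D.Z.D a (fun z => w (z.1, sg * (s + 1))) x = D.Z.D a w (x.1, sg * (s + 1)) :=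
    fun x a => by
    refine Eq.trans ?_ (dv_congr (eventually_of_mem (o.mem_nhds (m' x.1)) ti)).symm
    cases a with
    | none =>
      have := D_none_fst D.F.toPre sm
      exact (congrFun this x).trans (congrFun this (x.1, sg * (s + 1))).symm
    | some a =>
      have := D_some_fst D.F.toPre sm a
      exact (congrFun this x).trans (congrFun this (x.1, sg * (s + 1))).symm
  have p' : ∀ (x : Y.M × ℝ) a, D.Z.D a (fun z => w (z.1, sg * (s + 1))) x +
      (∑ b, D.B.P b a x • β'.W b x.1) ∘L w (x.1, sg * (s + 1)) -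
        w (x.1, sg * (s + 1)) ∘L β.W a x.1 = 0 := fun x a => by
    rw [k, q]; exact p (x.1, _) m a
  refine ⟨ti, ⟨(sm_fst sm).contMDiffOn, fun x _ => e.m.uu _ (m' x.1), fun x _ => e.m.uu' _ (m' x.1),
    fun x _ => e.m.J _ (m' x.1), fun x _ b => ?_, fun x _ => e.m.j _ (m' x.1)⟩,
    fun x _ => p' x, fun x _ => e.Φ _ (m' x.1), e.z⟩
  simp only [P_inv _ _ x.1 x.2 (sg * (s + 1))]
  exact e.m.ρ _ (m' x.1) b

variable (Y l) in
/-- the translation -/
abbrev φT : OpenPartialHomeomorph (Y.M × ℝ) (Y.M × ℝ) := (tau Y.M l).toOpenPartialHomeomorph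

variable (D δ O l) in
theorem ld : LD (φT Y l) univ (famZ T0 D δ O).F0.toPre (famZ T0 D δ O).F0.toPre := by
  classical
  have i := iso_tau D.F.toPre l
  obtain ⟨C, hC⟩ := lip_ab
  have c := (sm_wZ (I3 := Y.I) (Y := Y.M) δ).continuous
  refine ⟨i.sm, ⟨subset_univ _, by simp⟩, ⟨fun a b _ => if b = a then 1 else 0,
    fun _ _ => Cb_const _, fun a x hx _ => (i.e a x hx).trans (by simp; rfl)⟩,
    ⟨(Real.exp (2 * (|δ| * (C * |l|)))).toNNReal, fun g g1 g2 g3 _ => ?_⟩⟩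
  have c1 : Continuous fun y : Y.M × ℝ => Real.exp (2 * (δ * ab (y.2 - l))) • g y :=
    (Real.continuous_exp.comp (continuous_const.mul (continuous_const.mul
      (sm_ab.continuous.comp (continuous_snd.sub continuous_const))))).smul g1
  have c2 : Continuous fun y : Y.M × ℝ => Real.exp (2 * (δ * ab y.2)) • g y :=
    (Real.continuous_exp.comp (continuous_const.mul c)).smul g1
  have := (cylP D.F.toPre).fin
  have e : (famZ T0 D δ O).F0.μ = wm (cylP D.F.toPre).μ fun x => δ * ab x.2 := rfl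
  rw [e, integral_wm c, integral_wm c]
  refine ((integral_congr_ae (.of_forall fun x => ?_)).trans
    (Cht98.int_pull i.μ c1 (subset_univ _))).trans_le ?_
  · rw [pull_of_mem (mem_univ x), pull_of_mem (mem_univ x)]
    exact congrArg (fun t => Real.exp (2 * (δ * ab t)) • _) (add_sub_cancel_right x.2 l).symm
  · rw [← integral_const_mul]
    have s : ∀ f : Y.M × ℝ → ℝ, HasCompactSupport fun y => f y • g y := fun f =>
      g2.mono fun y hy e => hy (by simp [e])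
    refine integral_mono (c1.integrable_of_hasCompactSupport (s _))
      ((c2.integrable_of_hasCompactSupport (s _)).const_mul _) fun y => ?_
    simp only [smul_eq_mul, ← mul_assoc, Real.coe_toNNReal _ (Real.exp_pos _).le, ← Real.exp_add]
    refine mul_le_mul_of_nonneg_right (Real.exp_le_exp.2 ?_) (g3 y)
    have k := hC (y.2 - l) y.2
    rw [sub_sub_cancel_left, norm_neg, Real.norm_eq_abs, Real.norm_eq_abs] at k
    have k2 := (le_abs_self _).trans ((abs_mul δ _).trans_le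
      (mul_le_mul_of_nonneg_left k (abs_nonneg δ)))
    linarith

section tr
variable {V : Type} [NormedAddCommGroup V] [InnerProductSpace ℝ V] [FiniteDimensional ℝ V]
  {p : Y.M × ℝ → V →L[ℝ] V}

variable (D δ O l k p) in
/-- the translation of sections -/
def τ : (famZ T0 D δ O).F0.H k p →L[ℝ] (famZ T0 D δ O).F0.H k p :=
  tG _ _ (φT Y (-l)) k p p fun _ => .id ℝ V

variable (hp : ∀ x, p x = p (φT Y (-l) x))
include hp

theorem rep_τ : (famZ T0 D δ O).F0.RepT (famZ T0 D δ O).F0.toPre (τ D δ O l k p)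
    fun u => pull (φT Y (-l)) fun y => ContinuousLinearMap.id ℝ V (u y) :=
  (ld D δ O (-l)).rep (Cb_const _) (subset_univ _) fun x _ v e => (hp x).symm ▸ e

theorem val_τ (ok : (famZ T0 D δ O).OK) (hk : 4 ≤ k) (u : (famZ T0 D δ O).F0.H k p) (z : Y.M × ℝ) :
    (famZ T0 D δ O).F0.val k p (τ D δ O l k p u) z = (famZ T0 D δ O).F0.val k p u (φT Y (-l) z) :=
  (Cht98.val_pull (rep_τ hp) ok.sup ok.sup hk hk u z).trans (pull_of_mem (mem_univ z) _)

end tr

theorem brel (h : D.Adm β) (h0 : ∀ x ∉ O, β.Φ x.1 = 0) (hO : ∀ z z', z ∈ O ↔ z' ∈ O) :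
    BRel (bd (refZ T0 δ h h0)) (bd (refZ T0 δ h h0)) (φT Y l) := by
  have e1 : ∀ z, (refZ T0 δ h h0).Pg z = (refZ T0 δ h h0).Pg (φT Y l z) := fun z =>
    (indicator_of_mem (mem_univ z) _).trans ((pg_congr rfl (fun _ => rfl) rfl).trans
      (indicator_of_mem (mem_univ _) _).symm)
  have e2 : ∀ z, (fun i j => D.B.P i j z) = fun i j => D.B.P i j (φT Y l z) :=
    fun z => funext₂ fun i j => P_inv i j z.1 _ _
  have e3 : ∀ i j z, (famZ T0 D δ O).B.P i j (φT Y l z) = (famZ T0 D δ O).B.P i j z :=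
    fun i j z => P_inv i j z.1 _ _
  have e4 : ∀ z {f : _ → En (Fin β.m.N)}, f z = f (φT Y l z) →
      O.indicator f z = O.indicator f (φT Y l z) := fun z f e => by
    by_cases hx : z ∈ O
    · rw [indicator_of_mem hx, indicator_of_mem ((hO _ _).1 hx), e]
    · rw [indicator_of_notMem hx, indicator_of_notMem (mt (hO _ _).2 hx)]
  exact ⟨fun z _ => e2 z, fun _ _ _ => rfl, fun z _ => e1 z, fun z _ => congrArg₂ idx (e2 z) (e1 z),
    fun z _ => congrArg₂ idx (funext₂ fun s s' => by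
      simp only [Base.sd, Base.a2, Base.st, e3]; rfl) (e1 z),
    fun z _ => e4 z rfl, fun z _ => e4 z rfl⟩

theorem prel {M : Type} [TopologicalSpace M] [ChartedSpace (ModelProd Y.H ℝ) M]
    [IsManifold (IC Y.I) ∞ M] [MeasurableSpace M] [T2Space M] [BorelSpace M]
    [SecondCountableTopology M] {B : Base M (Option κ) lam} {G : Geo (IC Y.I) M (Option κ) lam}
    {φ U v} (g : LG B G B G univ φ U v) :
    PRel0 B G B G univ univ φ U v (eq0 B G 0 0 0).toPt (eq0 B G 0 0 0).toPt :=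
  ⟨fun k _ hx => ceq_dir g k.adm k.adm' k.e hx, fun k _ hx => (congrArg₂ (· - ·)
    (ceq_p2F g k.adm k.adm' k.e hx) (ceq_mu g k.adm k.adm' k.e hx)).trans (map_sub _ _ _).symm,
    fun _ => finZeroElim⟩

theorem eZ_sh {N : ND Y.M lam} (hD : OKZ D) (hN : N.OK D) {c : Cfg (Y.M × ℝ) (Option κ) lam 0}
    (h : Ad0 c D.B D.G) (x : Y.M × ℝ) : (eZ N D).D (sh l c) x = (eZ N D).D c (trZ l x) ∧
      (eZ N D).C (sh l c) x = (eZ N D).C c (trZ l x) := by
  have a : InvZ D (eq0 D.B D.G 0 0 0).toPt := ⟨prel hD.kc.toLG, fun s => prel (hD.kc_sh s).toLG⟩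
  have b := hD.q1 (r := 0) (n := 0) hN
  exact ⟨congrArg₂ (· - ·) (a.D_sh hD h l x) (b.D_sh hD h l x),
    congrArg₂ (· - ·) (a.C_sh hD h l x) (b.C_sh hD h l x)⟩

theorem dv_Z (hs : sg = 1 ∨ sg = -1) {y : Y.M} {t t' : ℝ} (h : 1 < sg * t) (h' : 1 < sg * t')
    (a : Option κ) : (Fs (famZ T0 D δ O) 0).dv a (y, t) = (Fs (famZ T0 D δ O) 0).dv a (y, t') := by
  have e : ∀ x, (Fs (famZ T0 D δ O) 0).dv a x = D.Z.dv a x + 2 * D.Z.D a (fun x => δ * ab x.2) x :=
    fun x => (Met55.fr_dv (famZ T0 D δ O).F0 a x).symm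
  rw [e, e, D_wZ]
  cases a
  · simp only [Option.elim, dab hs h, dab hs h']; rfl
  · rfl

theorem ind_eq {X V : Type} [Zero V] {S : Set X} {f g : X → V} {x y : X} (h : x ∈ S ↔ y ∈ S)
    (e : f x = g y) : S.indicator f x = S.indicator g y := by
  by_cases hx : x ∈ S
  · rw [indicator_of_mem hx, indicator_of_mem (h.1 hx), e]
  · rw [indicator_of_notMem hx, indicator_of_notMem (mt h.2 hx)]

theorem z0 {X X' : Type} [NormedAddCommGroup X] [NormedSpace ℝ X] [NormedAddCommGroup X']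
    [NormedSpace ℝ X'] (A : CL X X') {v : X} (e : v = 0) : A v = 0 := e ▸ map_zero A

theorem W_Z (h : D.Adm β) (h0 : ∀ x ∉ O, β.Φ x.1 = 0) (t : T0) (α) (a : Option κ) (x : Y.M × ℝ) :
    (refZ T0 δ h h0).W t α a x =
      β.W a x.1 + opL (idx (fun i j => D.B.P i j x) (.id ℝ _) (α x) a) := by
  have := congrFun₂ (W_refZ (δ := δ) h h0 t) a x
  simp only [Ref.W, Md.addC, Pi.zero_apply, map_zero, PiLp.zero_apply, add_zero] at this
  exact congrArg (· + _) this

/-- **the linearisation is translation invariant far out** -/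
theorem tt_tr {N : ND Y.M lam} (hD : OKZ D) (hN : N.OK D) (ok : (famZ T0 D δ O).OK) (hk : 4 ≤ k)
    (h : D.Adm β) (h0 : ∀ x ∉ O, β.Φ x.1 = 0) (hO : ∀ z z', z ∈ O ↔ z' ∈ O) (hs : sg = 1 ∨ sg = -1)
    {f : (refZ T0 δ h h0).C 0 k → (refZ T0 δ h h0).Y 0 0 k} (hf : RepF (fun _ => eZ N D) f)
    (u : Sec (IC Y.I) (bd (refZ T0 δ h h0)).pC)
    (hu : ∀ z, u.1 z = 0 ∨ 1 < sg * z.2 ∧ 1 < sg * (z.2 + l)) :
    TT k f (yZ δ h h0) (τ D δ O l _ _ ((famZ T0 D δ O).F0.toH _ _ u)) =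
      τ D δ O l _ _ (TT k f (yZ δ h h0) ((famZ T0 D δ O).F0.toH _ _ u)) := by
  have b := brel (δ := δ) (l := -l) h h0 hO
  have ρ := rep_τ (D := D) (δ := δ) (O := O) (k := k + 1) fun x => b.pC x trivial
  have r : Pj41.FRel D.Z D.Z (φT Y (-l)) univ := Pj41.fRel_of_iso (iso_tau D.F.toPre (-l))
  have e : ∀ x, (pull (φT Y (-l)) fun y => ContinuousLinearMap.id ℝ _ (u.1 y)) x =
      u.1 (φT Y (-l) x) := fun x => pull_of_mem (mem_univ x) _
  refine val_injective ok.sup hk (funext fun x => ?_)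
  have v := val_τ (l := l) (fun x => b.pF x trivial) ok hk
    (TT k f (yZ δ h h0) ((famZ T0 D δ O).F0.toH _ _ u)) x
  have v' := congrArg (fun w => (famZ T0 D δ O).F0.val k _ (TT k f (yZ δ h h0) w) x) (RepT_toH ρ u)
  refine v'.trans (Eq.trans ?_ v.symm)
  have r' : Pj41.FRel (Fs (famZ T0 D δ O) 0) (Fs (famZ T0 D δ O) 0) (φT Y (-l)) univ := ⟨r.1, r.2, r.3⟩
  have r1 : uy (yZ δ h h0) x = uy (yZ δ h h0) (φT Y (-l) x) := by
    have : uy (yZ δ h h0) = base (fun a x => β.W a x.1) ((fun x => β.Φ x.1) + 0) :=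
      congrArg (base · _) (W_refZ h h0 0)
    rw [this]; rfl
  have r2 := row' b r' (mem_univ x) r1 (.of_forall e) ((hu (φT Y (-l) x)).imp (e x).trans fun k =>
    dv_Z hs (k.2.trans_eq (congrArg _ (neg_add_cancel_right x.2 l))) k.1)
  refine tt_cmp ok hk hf _ ⟨_, RepT_mem ρ u⟩ u x _ r2 fun s z z' t1 t2 e1 e2 => ?_
  have P : ∀ x, (fun i j => D.B.P i j x) = fun i j => D.B.P i j (φT Y (-l) x) := fun x => b.P x trivial
  have sc : ∀ x, SC (refZ T0 δ h h0) ((famZ T0 D δ O).Si 0) x =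
      SC (refZ T0 δ h h0) ((famZ T0 D δ O).Si 0) (φT Y (-l) x) := fun x =>
    congrArg (fun S => sm2 (idx S _) _) (P x)
  have k1 : z.cfg.Φ = (sh (-l) z'.cfg).Φ := funext fun x => congrArg (β.Φ x.1 + ·)
    ((e1 x).2.trans (((congrArg₂ (fun S v => 0 + fp (S (s • v))) (sc x) (e x))).trans (e2 _).2.symm))
  have k2 : z.cfg.W = (sh (-l) z'.cfg).W := funext₂ fun a x => by
    have k3 : z.α x = z'.α (φT Y (-l) x) := (e1 x).1.trans
      ((congrArg₂ (fun (S : CL _ _) v => (0 : Fm (Option κ) (HS (Fin β.m.N))) + fa (S (s • v)))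
        (sc x) (e x)).trans (e2 _).1.symm)
    refine (W_Z h h0 _ _ a x).trans (Eq.trans ?_ (W_Z h h0 _ _ a (φT Y (-l) x)).symm)
    rw [k3, P x]; rfl
  have k4 := eZ_sh (l := -l) hD hN (z'.ad0 ok) x
  have k5 : ∀ {X : Type} (g : (refZ T0 δ h h0).m.Cn → (Y.M × ℝ → β.m.V) → _ → X),
      g z.cfg.W z.cfg.Φ z.z = g (sh (-l) z'.cfg).W (sh (-l) z'.cfg).Φ z'.z := fun g =>
    congr (congrArg₂ g k2 k1) (Subsingleton.elim _ _)
  have k6 := k5 (X := β.m.V) fun W Φ z => (eZ N D).D ⟨(refZ T0 δ h h0).m, W, Φ, z⟩ x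
  have k7 := k5 (X := Fm _ β.m.A) fun W Φ z => (eZ N D).C ⟨(refZ T0 δ h h0).m, W, Φ, z⟩ x
  replace k6 := k6.trans k4.1
  replace k7 := k7.trans k4.2
  exact ⟨ind_eq (hO _ _) k6, ind_eq (by rfl) k7⟩

set_option maxHeartbeats 2000000 in
variable (κ lam) in
/-- **IX-NATZ** -/
theorem natZ (hk : 4 ≤ k) : Cht98.NatZ κ lam k := by
  intro X δ β β' O O' h h' h0 h0' f f' sg s l w ζ hX ok _ hO hs hf hf' e
  have e0 : O = O' := Set.ext fun z => hO z z
  subst e0
  have hO' : ∀ z z', z ∈ O ↔ z' ∈ O := hO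
  have e1 := (half hX.ok h h' hs e).1
  have e2 := (half hX.ok h h' hs e).2
  have := hX.con
  have e3 : (yZ δ h h0).Eq (yZ δ h' h0') (fun z => w (z.1, sg * (s + 1))) ζ := by
    have a : ∀ {γ : X.C} (h : X.D.Adm γ) (h0 : ∀ x ∉ O, γ.Φ x.1 = 0), (refZ T0 δ h h0).W 0 0 = (cy γ).W ∧
        (refZ T0 δ h h0).Φ0 + 0 = (cy γ).Φ := fun h h0 => ⟨W_refZ h h0 0, add_zero _⟩
    have k : ∀ W Φ W' Φ', W = (cy β).W → Φ = (cy β).Φ → W' = (cy β').W → Φ' = (cy β').Φ →
        Mod61.EqOn (r := 0) X.D.B X.D.Z univ ⟨(cy β).m, W, Φ, 0⟩ ⟨(cy β').m, W', Φ', 0⟩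
          (fun z => w (z.1, sg * (s + 1))) ζ := by
      rintro _ _ _ _ rfl rfl rfl rfl
      exact ⟨e2.m, e2.W, e2.Φ, Subsingleton.elim _ _⟩
    exact k _ _ _ _ (a h h0).1 (a h h0).2 (a h' h0').1 (a h' h0').2
  have mi := e3.mi ok rfl
  have b := brel (δ := δ) (l := -l) h' h0' hO'
  have t : ∀ z : X.Y.M × ℝ, φT X.Y (-l) (z.1, z.2 + l) = z := fun z =>
    Prod.ext rfl (add_neg_cancel_right _ _)
  refine ⟨fun y => w (y, sg * (s + 1)), τ X.D δ O l _ _ ∘L (eC ok mi ζ (k + 1)).toContinuousLinearMap,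
    τ X.D δ O l _ _ ∘L (eW ok mi ζ k).toContinuousLinearMap, e1, fun u z => ?_, fun u z => ?_,
    fun u hu => ?_⟩
  · have v := val_τ (l := l) (fun x => b.pC x trivial) ok (k := k + 1) (by omega) (eC ok mi ζ _ u)
      (z.1, z.2 + l)
    rw [t] at v
    exact v.trans (val_eC ok mi (by omega) trivial u)
  · have v := val_τ (l := l) (fun x => b.pF x trivial) ok hk (eW ok mi ζ _ u) (z.1, z.2 + l)
    have v' := val_eW (c := ζ) (x := z) ok mi hk trivial u
    exact v.trans ((congrArg _ (t z)).trans v')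
  have ρ := rep_mulH (k := k + 1) (cb_aC (c := ζ) mi) (maps_aC ok mi)
  have g1 := (eC_eq ok (c := ζ) mi (k := k + 1) (by omega) _).trans (RepT_toH ρ u)
  have g2 := tt_gau ok e3 rfl hk (Fam.Nat.natP ok (fun _ _ => nat_eZ hX) _ _ fun _ _ => True)
    trivial hf hf' ((famZ T0 X.D δ O).F0.toH _ _ u)
  have g4 := fun z => (hu z).imp_left (z0 (aC (o := refZ T0 δ h h0) (o' := refZ T0 δ h' h0')
    (fun z => w (z.1, sg * (s + 1))) ζ z))
  have g3 := tt_tr (l := l) (okZ hX.ok X.Y.dim.le) hX.nd ok hk h' h0' hO' hs hf' ⟨_, RepT_mem ρ u⟩ g4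
  exact (congrArg (fun v => TT k f' (yZ δ h' h0') (τ X.D δ O l _ _ v)) g1).trans
    (g3.trans (congrArg (τ X.D δ O l _ _) ((congrArg (TT k f' (yZ δ h' h0')) g1.symm).trans g2)))

end Crest.Agent.X212.Ntz30
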