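import Crest.Agent.X212.Ixz30.Ff
import Crest.Agent.X212.Cht98.TrB
import Crest.Agent.X212.Nk89.Asy

/-!
# X212 / Ntz30 (helper30): the linearisation along gauge transformations and literal maps
-/

set_option autoImplicit false
set_option linter.unusedSectionVars false
noncomputable section
open scoped Manifold ContDiff Topology InnerProductSpace
open MeasureTheory Set Function Filter

namespace Crest.Agent.X212.Ntz30
open An An.Pre Sob92 Ell97 Prm93 Fred93 Mod61 Map77 Nk89 Eqv71 Ixz30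
open Cht98 (ΛC ΛF)

variable {E : Type} [NormedAddCommGroup E] [NormedSpace ℝ E] [FiniteDimensional ℝ E]
  [MeasurableSpace E] [BorelSpace E]
  {HM : Type} [TopologicalSpace HM] {I : ModelWithCorners ℝ E HM} [I.Boundaryless]
  {M : Type} [TopologicalSpace M] [ChartedSpace HM M] [IsManifold I ∞ M]
  [MeasurableSpace M] [T2Space M] [BorelSpace M] [SecondCountableTopology M]
  {ι : Type} [Fintype ι] {lam : Type} [Fintype lam]
  {T : Type} [NormedAddCommGroup T] [NormedSpace ℝ T]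

section gen
variable {V W V' W' : Type} [NormedAddCommGroup V] [InnerProductSpace ℝ V] [FiniteDimensional ℝ V]
  [NormedAddCommGroup W] [InnerProductSpace ℝ W] [FiniteDimensional ℝ W]
  [NormedAddCommGroup V'] [InnerProductSpace ℝ V'] [FiniteDimensional ℝ V']
  [NormedAddCommGroup W'] [InnerProductSpace ℝ W'] [FiniteDimensional ℝ W'] {F : Pre I M ι}
  {p : M → V →L[ℝ] V} {p' : M → V' →L[ℝ] V'} {q : M → W →L[ℝ] W} {q' : M → W' →L[ℝ] W'} {j : ℕ}

theorem val_sumE {S : ℝ} (hS : Sup F S) (hj : 4 ≤ j) {a : F.H j p ≃L[ℝ] F.H j p'}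
    {b : F.H j q ≃L[ℝ] F.H j q'} {z : M} {A : V →L[ℝ] V'} {B : W →L[ℝ] W'}
    (ha : ∀ u, F.val j _ (a u) z = A (F.val j _ u z)) (hb : ∀ u, F.val j _ (b u) z = B (F.val j _ u z))
    (x : F.H j (ps p q)) : F.val j _ (sumE a b x) z = sm2 A B (F.val j _ x z) := by
  rw [← iH_add x, sumE_apply]
  simp only [val_add, Pi.add_apply, val_iH1 hS hj, val_iH2 hS hj, ha, hb]
  refine ext2 ?_ ?_ <;> simp

variable {κ : Type} [Fintype κ] [DecidableEq κ]

theorem row' {d d' : Bd M ι κ} {φ : OpenPartialHomeomorph M M} (h : BRel d d' φ) {G : Fr I M ι}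
    {u u' v v' : M → Cf ι κ} (r : Pj41.FRel G G φ φ.source) {x : M} (hx : x ∈ φ.source)
    (hu : u x = u' (φ x)) (hv : ∀ᶠ y in 𝓝 x, v y = v' (φ y))
    (hd : v x = 0 ∨ ∀ a, G.dv a x = G.dv a (φ x)) :
    G.op ((d.d0 G u).adj G).σ ((d.d0 G u).adj G).B v x =
      G.op ((d'.d0 G u').adj G).σ ((d'.d0 G u').adj G).B v' (φ x) := by
  have n := φ.open_source.mem_nhds hx
  have e1 := fun a => r.D (u := fun y => Op.tr ((d.d0 G u).σ a y))
    (u' := fun y => Op.tr ((d'.d0 G u').σ a y)) hx a (mem_of_superset n fun y hy =>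
    congrArg Op.tr (h.d0σ (G := G) (G' := G) (u := u) (u' := u') a y hy))
  have e2 := fun a => r.D hx a (mem_of_superset n h.g)
  have e3 : (d.d0 G u).B x = (d'.d0 G u').B (φ x) := by
    simp only [Bd.d0, Map77.cut, h.pC x hx, h.P x hx, hu, e2]
  have e4 : (d.d0 G u).p x = (d'.d0 G u').p (φ x) := h.g x hx
  simp only [Pre.op, Op.adj, e1, e3, e4, h.d0σ (G := G) (G' := G) (u := u) (u' := u') _ x hx,
    r.D hx _ hv, ← hv.self_of_nhds]
  rcases hd with e | e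
  · rw [e, map_zero, map_zero]
  · simp only [e]

end gen

variable {𝔉 : Fam I M ι lam T} (h : 𝔉.OK) {o o' : Ref 𝔉} {r n m k : ℕ}
  {w : M → CL o.m.V o'.m.V} {c : Circle} {x : M}
include h

theorem cF_eq (e : MI o o' w) (hx : x ∈ 𝔉.Om) {α : Type} [Fintype α] {S S' : α → α → ℝ}
    {η : Fm α o.m.A} (h1 : idx S (o.Pg x) η = η) (h2 : ∀ a, ∑ b, S' a b • η b = η a) :
    cF 𝔉 α w x η = ridx S' (cj (csL o'.m.J c ∘L w x)) η := fm_ext fun a => by
  rw [cF_apply h1, ridx_apply, ← h2 a, map_sum]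
  exact Finset.sum_congr rfl fun b _ => by
    rw [map_smul, cj_phase (e.me x hx) o.ok o'.ok c (idx_mem h1 b)]

theorem val_eC (e : MI o o' w) (hk : 4 ≤ k) (hx : x ∈ 𝔉.Om) (u : 𝔉.F0.H k (bd o).pC) :
    𝔉.F0.val k _ (eC h e c k u) x =
      ΛC (fun i j => 𝔉.B.P i j x) (csL o'.m.J c ∘L w x) (𝔉.F0.val k _ u x) := by
  have p := maps_f2 x _ (val_proj h.sup hk u x)
  rw [eC_eq h e hk, val_mulH h.sup hk (cb_aC e) (maps_aC h e), ΛC]
  refine ext2 ?_ ?_
  · rw [f2_sm2, f2_sm2]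
    exact cF_eq h e hx p fun a => p ▸ (ok_bd o h).P_p1 x _ a
  · rw [s2_sm2, s2_sm2, cS, indicator_of_mem hx]

/-- the action on equations -/
abbrev eW (e : MI o o' w) (c : Circle) (k : ℕ) := sumE (eG h e k) (eE h e c k)

theorem val_eW (e : MI o o' w) (hk : 4 ≤ k) (hx : x ∈ 𝔉.Om) (u : 𝔉.F0.H k (ps o.Pg (bd o).pE)) :
    𝔉.F0.val k _ (eW h e c k u) x =
      ΛF (fun i j => 𝔉.B.P i j x) (csL o'.m.J c ∘L w x) (𝔉.F0.val k _ u x) := by
  have p := val_proj h.sup hk u x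
  have p1 := maps_f2 x _ p
  have p2 := maps_s2 x _ (maps_s2 x _ p)
  have s := (ok_bd o h).sd_p2 x (s2 _ _ (s2 _ _ (𝔉.F0.val k _ u x)))
  rw [show (bd o).p2 x _ = _ from p2] at s
  have k1 : ∀ u, 𝔉.F0.val k _ (eE h e c k u) x = _ :=
    val_sumE h.sup hk (fun u => val_mulH h.sup hk (e.cS c) (e.mM h c) u x)
      fun u => val_mulH h.sup hk (e.cF _) (e.mF h _) u x
  have k2 : ∀ u, 𝔉.F0.val k _ (eG h e k u) x = _ :=
    fun u => val_mulH h.sup hk (Cb_cj e.cb) (maps_aG h e) u x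
  refine (val_sumE h.sup hk k2 k1 u).trans ?_
  rw [ΛF]
  refine ext2 ?_ (ext2 ?_ ?_)
  · rw [f2_sm2, f2_sm2, indicator_of_mem hx, cj_phase (e.me x hx) o.ok o'.ok c (mem_g o p1)]
  · simp only [s2_sm2, f2_sm2, cS, indicator_of_mem hx]
  · simp only [s2_sm2]
    refine cF_eq h e hx p2 fun a => ?_
    rw [← s.pr a.1 a.2]
    simp only [← s.pr' _ a.2, Finset.smul_sum, smul_smul, Fintype.sum_prod_type, sq2]

/-- **the linearisation is gauge natural** -/
theorem tt_gau {y : Pnt o r} {y' : Pnt o' r} (e : y.Eq y' w c) (ht : y'.t = y.t) (hk : 4 ≤ k)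
    {Al : (M → CL o.m.V o'.m.V) → Circle → Prop} {τ : T → PtX M ι lam r n m} (hn : NatP o o' Al τ)
    (al : Al w c) {f : o.C r k → o.Y n m k} {f' : o'.C r k → o'.Y n m k} (hf : RepF τ f)
    (hf' : RepF τ f') (v : 𝔉.F0.H (k + 1) (bd o).pC) :
    TT k f' y' (eC h (e.mi h ht) c _ v) = eW h (e.mi h ht) c k (TT k f y v) := by
  have mi := e.mi h ht
  have a := mi.actY h (n := n) (m := m) hk c
  have e4 := DFunLike.congr_fun (row_nat h e ht (k := k)) v
  have e5 := congrArg (sY o' n m k) (dir_nat h e ht (by omega) hf.1 hf'.1 (fun z z' h1 h2 _ _ e' => by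
    rw [a.rep h hk hn (h2.trans h1.symm) al e' (hf.2 z) (hf'.2 z'),
      a.rep h hk hn ht al e (hf.2 y) (hf'.2 y'), map_sub]) v)
  rw [sY_LY h mi] at e5
  simp only [ContinuousLinearMap.comp_apply, ← eC_eq h mi (k := k + 1) (by omega)] at e4
  rw [TT, ht]
  simp only [TG, ContinuousLinearMap.comp_apply, _root_.add_apply, sumE_apply, e4, e5]
  rfl

omit h in
/-- the gauge row -/
def rw0 (y : Pnt o r) : (M → Cf ι (Fin o.m.N)) → M → o.m.A :=
  (Fs 𝔉 y.t).op (((bd o).d0 (Fs 𝔉 y.t) (uy y)).adj (Fs 𝔉 y.t)).σ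
    (((bd o).d0 (Fs 𝔉 y.t) (uy y)).adj (Fs 𝔉 y.t)).B

omit h in
theorem dir_eq {X Y N : Type} [NormedAddCommGroup X] [NormedSpace ℝ X] [NormedAddCommGroup Y]
    [NormedSpace ℝ Y] [NormedAddCommGroup N] [NormedSpace ℝ N] {f : X → Y} {A : X →L[ℝ] Y} {p : X}
    (hf : HasFDerivAt f A p) (a b : Y →L[ℝ] N) (v v' : X)
    (H : ∀ s : ℝ, a (f (p + s • v)) = b (f (p + s • v'))) : a (A v) = b (A v') := by
  have d : ∀ (a : Y →L[ℝ] N) v, HasDerivAt (fun s : ℝ => a (f (p + s • v))) (a (A v)) 0 :=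
    fun a v => a.hasFDerivAt.comp_hasDerivAt 0 (HasFDerivAt.comp_hasDerivAt (l := f) 0
      (by rwa [zero_smul, add_zero])
      (by simpa using ((hasDerivAt_id (0 : ℝ)).smul_const v).const_add p))
  exact (funext H ▸ d a v).unique (d b v')

/-- pointwise comparison of values of the linearisation -/
theorem tt_cmp (hk : 4 ≤ k) {τ : T → PtX M ι lam r n m} {f : o.C r k → o.Y n m k} (hf : RepF τ f)
    (y : Pnt o r) (u u' : Sec I (bd o).pC) (x x' : M) (h1 : rw0 y u.1 x = rw0 y u'.1 x')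
    (h2 : ∀ (s : ℝ) (z z' : Pnt o r), z.t = y.t → z'.t = y.t →
      (∀ x, z.α x = y.α x + fa (SC o (𝔉.Si y.t) x (s • u.1 x)) ∧
        z.φ x = y.φ x + fp (SC o (𝔉.Si y.t) x (s • u.1 x))) →
      (∀ x, z'.α x = y.α x + fa (SC o (𝔉.Si y.t) x (s • u'.1 x)) ∧
        z'.φ x = y.φ x + fp (SC o (𝔉.Si y.t) x (s • u'.1 x))) →
      vD τ z x = vD τ z' x' ∧ vC τ z x = vC τ z' x') :
    𝔉.F0.val k _ (TT k f y (𝔉.F0.toH (k + 1) _ u)) x =
      𝔉.F0.val k _ (TT k f y (𝔉.F0.toH (k + 1) _ u')) x' := by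
  have d := ((hf.1.contDiffAt ((Map77.isOpen_U h).mem_nhds (pt_mem y))).differentiableAt
    (by simp)).hasFDerivAt
  have v : ∀ (z : Pnt o r) x, 𝔉.F0.val k _ (sY o n m k (f (z.pt k))) x =
      i1 _ _ (vD τ z x) + i2 _ _ (vC τ z x) := fun z x => by
    rw [sY_apply, val_add, Pi.add_apply, val_iH1 h.sup hk, val_iH2 h.sup hk, (hf.2 z).D, (hf.2 z).C]
    rfl
  have k1 := dir_eq d (𝔉.F0.ev k _ x ∘L sY o n m k) (𝔉.F0.ev k _ x' ∘L sY o n m k)
    (sC' o r k y.t (𝔉.F0.toH _ _ u)) (sC' o r k y.t (𝔉.F0.toH _ _ u')) fun s => by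
      obtain ⟨z, e0, e1, e2⟩ := exists_add h (k := k) (by omega) y (s • u)
      obtain ⟨z', e0', e1', e2'⟩ := exists_add h (k := k) (by omega) y (s • u')
      rw [map_smul, map_smul] at e1 e1'
      rw [← e1, ← e1']
      refine (v z x).trans (Eq.trans ?_ (v z' x').symm)
      rw [(h2 s z z' e0 e0' e2 e2').1, (h2 s z z' e0 e0' e2 e2').2]
  have k2 := fun u => val_RR ((adj_rem h).hy o y.ht) hk (cb_uy h y) u
  simp only [TG, _root_.add_apply, ContinuousLinearMap.comp_apply, val_add, Pi.add_apply,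
    val_iH1 h.sup hk, val_iH2 h.sup hk]
  exact congrArg₂ (i1 _ _ · + i2 _ _ ·) ((congrFun (k2 u) x).trans (h1.trans (congrFun (k2 u') x').symm)) k1

end Crest.Agent.X212.Ntz30
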